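import Vale.Agent.Lib.P328.C3M0
import Vale.Agent.Lib.P328.C3M1
import Vale.Agent.Lib.P328.C3M2
import Vale.Agent.Lib.P328.C3M3
import Vale.Agent.Lib.P328.C3M4

/-! All canonical cases of the local three-row inequality. -/

namespace Vale.Agent.Lib.P328.C3

open Vale.Agent.Lib.P328

theorem ok_1_1_1 : ∀ S ∈ parts (1 + 1 + 1), Ok S 1 1 1 := by
  intro S hS
  have e : parts (1 + 1 + 1) = [[3], [2, 1], [1, 1, 1]] := by decide
  rw [e] at hS
  simp only [List.mem_cons, List.not_mem_nil, or_false] at hS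
  rcases hS with rfl | rfl | rfl
  · exact case0
  · exact case1
  · exact case2

theorem ok_1_1_2 : ∀ S ∈ parts (1 + 1 + 2), Ok S 1 1 2 := by
  intro S hS
  have e : parts (1 + 1 + 2) = [[4], [3, 1], [2, 2], [2, 1, 1], [1, 1, 1, 1]] := by decide
  rw [e] at hS
  simp only [List.mem_cons, List.not_mem_nil, or_false] at hS
  rcases hS with rfl | rfl | rfl | rfl | rfl
  · exact case3
  · exact case4
  · exact case5
  · exact case6
  · exact case7

theorem ok_1_1_3 : ∀ S ∈ parts (1 + 1 + 3), Ok S 1 1 3 := by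
  intro S hS
  have e : parts (1 + 1 + 3) = [[5], [4, 1], [3, 2], [3, 1, 1], [2, 2, 1], [2, 1, 1, 1], [1, 1, 1, 1, 1]] := by decide
  rw [e] at hS
  simp only [List.mem_cons, List.not_mem_nil, or_false] at hS
  rcases hS with rfl | rfl | rfl | rfl | rfl | rfl | rfl
  · exact case26
  · exact case27
  · exact case28
  · exact case29
  · exact case30
  · exact case31
  · exact case32

theorem ok_1_2_2 : ∀ S ∈ parts (1 + 2 + 2), Ok S 1 2 2 := by
  intro S hS
  have e : parts (1 + 2 + 2) = [[5], [4, 1], [3, 2], [3, 1, 1], [2, 2, 1], [2, 1, 1, 1], [1, 1, 1, 1, 1]] := by decide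
  rw [e] at hS
  simp only [List.mem_cons, List.not_mem_nil, or_false] at hS
  rcases hS with rfl | rfl | rfl | rfl | rfl | rfl | rfl
  · exact case8
  · exact case9
  · exact case10
  · exact case11
  · exact case12
  · exact case13
  · exact case14

theorem ok_1_2_3 : ∀ S ∈ parts (1 + 2 + 3), Ok S 1 2 3 := by
  intro S hS
  have e : parts (1 + 2 + 3) = [[6], [5, 1], [4, 2], [4, 1, 1], [3, 3], [3, 2, 1], [3, 1, 1, 1], [2, 2, 2], [2, 2, 1, 1], [2, 1, 1, 1, 1], [1, 1, 1, 1, 1, 1]] := by decide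
  rw [e] at hS
  simp only [List.mem_cons, List.not_mem_nil, or_false] at hS
  rcases hS with rfl | rfl | rfl | rfl | rfl | rfl | rfl | rfl | rfl | rfl | rfl
  · exact case33
  · exact case34
  · exact case35
  · exact case36
  · exact case37
  · exact case38
  · exact case39
  · exact case40
  · exact case41
  · exact case42
  · exact case43

theorem ok_1_3_3 : ∀ S ∈ parts (1 + 3 + 3), Ok S 1 3 3 := by
  intro S hS
  have e : parts (1 + 3 + 3) = [[7], [6, 1], [5, 2], [5, 1, 1], [4, 3], [4, 2, 1], [4, 1, 1, 1], [3, 3, 1], [3, 2, 2], [3, 2, 1, 1], [3, 1, 1, 1, 1], [2, 2, 2, 1], [2, 2, 1, 1, 1], [2, 1, 1, 1, 1, 1], [1, 1, 1, 1, 1, 1, 1]] := by decide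
  rw [e] at hS
  simp only [List.mem_cons, List.not_mem_nil, or_false] at hS
  rcases hS with rfl | rfl | rfl | rfl | rfl | rfl | rfl | rfl | rfl | rfl | rfl | rfl | rfl | rfl | rfl
  · exact case59
  · exact case60
  · exact case61
  · exact case62
  · exact case63
  · exact case64
  · exact case65
  · exact case66
  · exact case67
  · exact case68
  · exact case69
  · exact case70
  · exact case71
  · exact case72
  · exact case73

theorem ok_2_2_2 : ∀ S ∈ parts (2 + 2 + 2), Ok S 2 2 2 := by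
  intro S hS
  have e : parts (2 + 2 + 2) = [[6], [5, 1], [4, 2], [4, 1, 1], [3, 3], [3, 2, 1], [3, 1, 1, 1], [2, 2, 2], [2, 2, 1, 1], [2, 1, 1, 1, 1], [1, 1, 1, 1, 1, 1]] := by decide
  rw [e] at hS
  simp only [List.mem_cons, List.not_mem_nil, or_false] at hS
  rcases hS with rfl | rfl | rfl | rfl | rfl | rfl | rfl | rfl | rfl | rfl | rfl
  · exact case15
  · exact case16
  · exact case17
  · exact case18
  · exact case19
  · exact case20
  · exact case21
  · exact case22
  · exact case23
  · exact case24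
  · exact case25

theorem ok_2_2_3 : ∀ S ∈ parts (2 + 2 + 3), Ok S 2 2 3 := by
  intro S hS
  have e : parts (2 + 2 + 3) = [[7], [6, 1], [5, 2], [5, 1, 1], [4, 3], [4, 2, 1], [4, 1, 1, 1], [3, 3, 1], [3, 2, 2], [3, 2, 1, 1], [3, 1, 1, 1, 1], [2, 2, 2, 1], [2, 2, 1, 1, 1], [2, 1, 1, 1, 1, 1], [1, 1, 1, 1, 1, 1, 1]] := by decide
  rw [e] at hS
  simp only [List.mem_cons, List.not_mem_nil, or_false] at hS
  rcases hS with rfl | rfl | rfl | rfl | rfl | rfl | rfl | rfl | rfl | rfl | rfl | rfl | rfl | rfl | rfl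
  · exact case44
  · exact case45
  · exact case46
  · exact case47
  · exact case48
  · exact case49
  · exact case50
  · exact case51
  · exact case52
  · exact case53
  · exact case54
  · exact case55
  · exact case56
  · exact case57
  · exact case58

theorem ok_2_3_3 : ∀ S ∈ parts (2 + 3 + 3), Ok S 2 3 3 := by
  intro S hS
  have e : parts (2 + 3 + 3) = [[8], [7, 1], [6, 2], [6, 1, 1], [5, 3], [5, 2, 1], [5, 1, 1, 1], [4, 4], [4, 3, 1], [4, 2, 2], [4, 2, 1, 1], [4, 1, 1, 1, 1], [3, 3, 2], [3, 3, 1, 1], [3, 2, 2, 1], [3, 2, 1, 1, 1], [3, 1, 1, 1, 1, 1], [2, 2, 2, 2], [2, 2, 2, 1, 1], [2, 2, 1, 1, 1, 1], [2, 1, 1, 1, 1, 1, 1], [1, 1, 1, 1, 1, 1, 1, 1]] := by decide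
  rw [e] at hS
  simp only [List.mem_cons, List.not_mem_nil, or_false] at hS
  rcases hS with rfl | rfl | rfl | rfl | rfl | rfl | rfl | rfl | rfl | rfl | rfl | rfl | rfl | rfl | rfl | rfl | rfl | rfl | rfl | rfl | rfl | rfl
  · exact case74
  · exact case75
  · exact case76
  · exact case77
  · exact case78
  · exact case79
  · exact case80
  · exact case81
  · exact case82
  · exact case83
  · exact case84
  · exact case85
  · exact case86
  · exact case87
  · exact case88
  · exact case89
  · exact case90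
  · exact case91
  · exact case92
  · exact case93
  · exact case94
  · exact case95

theorem ok_3_3_3 : ∀ S ∈ parts (3 + 3 + 3), Ok S 3 3 3 := by
  intro S hS
  have e : parts (3 + 3 + 3) = [[9], [8, 1], [7, 2], [7, 1, 1], [6, 3], [6, 2, 1], [6, 1, 1, 1], [5, 4], [5, 3, 1], [5, 2, 2], [5, 2, 1, 1], [5, 1, 1, 1, 1], [4, 4, 1], [4, 3, 2], [4, 3, 1, 1], [4, 2, 2, 1], [4, 2, 1, 1, 1], [4, 1, 1, 1, 1, 1], [3, 3, 3], [3, 3, 2, 1], [3, 3, 1, 1, 1], [3, 2, 2, 2], [3, 2, 2, 1, 1], [3, 2, 1, 1, 1, 1], [3, 1, 1, 1, 1, 1, 1], [2, 2, 2, 2, 1], [2, 2, 2, 1, 1, 1], [2, 2, 1, 1, 1, 1, 1], [2, 1, 1, 1, 1, 1, 1, 1], [1, 1, 1, 1, 1, 1, 1, 1, 1]] := by decide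
  rw [e] at hS
  simp only [List.mem_cons, List.not_mem_nil, or_false] at hS
  rcases hS with rfl | rfl | rfl | rfl | rfl | rfl | rfl | rfl | rfl | rfl | rfl | rfl | rfl | rfl | rfl | rfl | rfl | rfl | rfl | rfl | rfl | rfl | rfl | rfl | rfl | rfl | rfl | rfl | rfl | rfl
  · exact case96
  · exact case97
  · exact case98
  · exact case99
  · exact case100
  · exact case101
  · exact case102
  · exact case103
  · exact case104
  · exact case105
  · exact case106
  · exact case107
  · exact case108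
  · exact case109
  · exact case110
  · exact case111
  · exact case112
  · exact case113
  · exact case114
  · exact case115
  · exact case116
  · exact case117
  · exact case118
  · exact case119
  · exact case120
  · exact case121
  · exact case122
  · exact case123
  · exact case124
  · exact case125

/-- All canonical cases pass the check. -/
theorem localOK : LocalOK 3 := by
  intro a0 a1 a2 h0 h1 h2 h3
  interval_cases a2 <;> interval_cases a1 <;> interval_cases a0 <;> first
    | exact ok_1_1_1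
    | exact ok_1_1_2
    | exact ok_1_1_3
    | exact ok_1_2_2
    | exact ok_1_2_3
    | exact ok_1_3_3
    | exact ok_2_2_2
    | exact ok_2_2_3
    | exact ok_2_3_3
    | exact ok_3_3_3

end Vale.Agent.Lib.P328.C3
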